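import Crest.Agent.R026.Low
import Crest.Agent.R026.Par

/-!
# Row 27, part A: Artin's lower bound from the Kummer–Chebotarev input `KC`

Primes `p ∈ (x/2, x]` with `p - 1 = Q m`, `Q` a prime in `(x^(1-3δ), x^(1-2δ)]`, and `p - 1` in a
set `𝒮` of residues modulo a fixed `W` are numerous by `R026.thmB`.  The classes force `a` to be a
quadratic non-residue and `ℓ ∤ p - 1` for odd primes `ℓ ≤ y`; primes `ℓ ∈ (y, x^(3δ)]` dividing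
the index are excluded by `KC`, and `ℓ = Q` by size.
-/

set_option autoImplicit false

namespace Crest.Agent.R027

open Finset Filter Crest.Agent.R008 Crest.Agent.R026

open Classical in
/-- The primes `p ≤ x`, `p ≡ 1 (mod l)`, `p ∤ a`, modulo which `a` is an `l`-th power. -/
noncomputable def Bad (a : ℤ) (l : ℕ) (x : ℝ) : Finset ℕ :=
  (primesIoc 0 x).filter (fun p => l ∣ p - 1 ∧ ¬ (p : ℤ) ∣ a ∧ ∃ y : ZMod p, y ^ l = (a : ZMod p))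

/-- The Kummer–Chebotarev input. -/
def KC (a : ℤ) : Prop := ∃ (δ C : ℝ) (k l₀ : ℕ), 0 < δ ∧ 0 ≤ C ∧ ∀ l : ℕ, l.Prime → l₀ ≤ l →
  ∀ x : ℝ, 2 ≤ x → ∑ p ∈ Bad a l x, Real.log p ≤ C * x / (l : ℝ) ^ 2 + C * (l : ℝ) ^ k * x ^ (1 - δ)

/-- Residues `s` modulo `W` with `s + 1` a unit. -/
def Cls (W : ℕ) (𝒮 : Finset ℕ) : Prop := 1 ≤ W ∧ ∀ s ∈ 𝒮, s < W ∧ Nat.Coprime (s + 1) W

/-- The classes are admissible for `a` up to `y`. -/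
def Good (a : ℤ) (y W : ℕ) (𝒮 : Finset ℕ) : Prop := ∀ p : ℕ, p.Prime → (p - 1) % W ∈ 𝒮 →
  ¬ (p : ℤ) ∣ a ∧ ¬ IsSquare (a : ZMod p) ∧ ∀ l : ℕ, l.Prime → 3 ≤ l → l ≤ y → ¬ l ∣ p - 1

/-- The weight. -/
noncomputable def fA (W : ℕ) (𝒮 : Finset ℕ) (x δ : ℝ) (n : ℕ) : ℝ :=
  ∑ Q ∈ primesIoc (x ^ (1 - 3 * δ)) (x ^ (1 - 2 * δ)), ind (n % W ∈ 𝒮 ∧ Q ∣ n)

end Crest.Agent.R027
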