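import Crest.Agent.R027.ADefs

set_option autoImplicit false

namespace Crest.Agent.R027

open Finset Filter Crest.Agent.R008 Crest.Agent.R026

open scoped NumberTheorySymbols in
theorem acls_one {b n : ℕ} (h : 4 * b ∣ n + 1) : J((b : ℤ) | n) = 1 := by
  have hb : 0 < b := Nat.pos_of_ne_zero fun h0 => by simp [h0] at h
  have h4 : 4 ∣ n + 1 := (dvd_mul_right 4 b).trans h
  have hn : Odd n := Nat.odd_iff.2 (by omega)
  obtain ⟨m, hm⟩ : ∃ m, 4 * b = m + 1 := ⟨4 * b - 1, by omega⟩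
  have hmo : Odd m := Nat.odd_iff.2 (by omega)
  have h1 : n % (4 * b) = m := by
    have h2 : n + 1 ≡ m + 1 [MOD 4 * b] :=
      (Nat.modEq_zero_iff_dvd.2 h).trans (Nat.modEq_zero_iff_dvd.2 hm.dvd).symm
    exact Eq.trans (Nat.ModEq.add_right_cancel' 1 h2) (Nat.mod_eq_of_lt (by omega))
  have h3 : J((4 : ℤ) * b | m) = J(1 | m) := jacobiSym.mod_left' (by
    rw [show (4 : ℤ) * b = 1 + m by omega, Int.add_emod_right])
  rw [jacobiSym.mul_left, jacobiSym.at_four hmo, jacobiSym.one_left, one_mul] at h3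
  rw [jacobiSym.mod_right' b hn, h1, h3]

theorem acls_not_dvd {l n : ℕ} (hl : 3 ≤ l) (hn : Odd n) (h : l ∣ n + 1) : ¬ l ∣ n - 1 := fun h' => by
  have h1 := hn.pos
  have h2 := Nat.dvd_sub h h'
  rw [show n + 1 - (n - 1) = 2 by omega] at h2
  have := Nat.le_of_dvd two_pos h2
  omega

open scoped NumberTheorySymbols in
theorem acls_prime {q b : ℕ} (hq : q.Prime) (h3 : q ≠ 3) (hb : ¬ q ∣ b) :
    ∃ n, 4 * b ∣ n + 1 ∧ J((q : ℤ) | n) = -1 ∧ (3 ≤ q → ¬ q ∣ n - 1) := by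
  have hb0 : 0 < b := Nat.pos_of_ne_zero fun h0 => hb (by simp [h0])
  rcases eq_or_ne q 2 with rfl | h2
  · refine ⟨4 * b - 1, by rw [Nat.sub_add_cancel (by omega)], ?_, by omega⟩
    rw [Nat.cast_ofNat, jacobiSym.at_two (Nat.odd_iff.2 (by omega)), ZMod.χ₈_nat_mod_eight,
      show (4 * b - 1) % 8 = 3 by omega]
    decide
  haveI := Fact.mk hq
  have hqo : q % 2 = 1 := Nat.odd_iff.1 (hq.odd_of_ne_two h2)
  have hne : ∀ p : ℕ, p.Prime → q ≠ p → (p : ZMod q) ≠ 0 := fun p hp h h' =>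
    h ((Nat.prime_dvd_prime_iff_eq hq hp).1 ((ZMod.natCast_eq_zero_iff _ _).1 h'))
  obtain ⟨w, hw, hw1⟩ : ∃ w : ZMod q, ¬ IsSquare w ∧ w ≠ -1 := by
    obtain ⟨w, hw⟩ := FiniteField.exists_nonsquare (F := ZMod q) (by rwa [ZMod.ringChar_zmod_n])
    rcases eq_or_ne w (-1) with rfl | h
    · have e2 : (2 : ZMod q) ≠ 0 := by exact_mod_cast hne 2 Nat.prime_two h2
      have e3 : (3 : ZMod q) ≠ 0 := by exact_mod_cast hne 3 Nat.prime_three h3
      refine ⟨-4, fun ⟨t, ht⟩ => hw ⟨t / 2, ?_⟩, fun h => e3 (by linear_combination -h)⟩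
      field_simp
      linear_combination ht
    · exact ⟨w, hw, h⟩
  have hco : Nat.Coprime q (4 * b) := Nat.Coprime.mul_right
    (((Nat.coprime_primes hq Nat.prime_two).2 h2).pow_right 2) (hq.coprime_iff_not_dvd.2 hb)
  obtain ⟨n, hn1, hn2⟩ := Nat.chineseRemainder hco (-w).val (4 * b - 1)
  have hd : 4 * b ∣ n + 1 := by
    have := hn2.add_right 1
    rw [Nat.sub_add_cancel (by omega)] at this
    exact Nat.modEq_zero_iff_dvd.1 (this.trans (Nat.modEq_zero_iff_dvd.2 dvd_rfl))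
  have h4 : 4 ∣ n + 1 := (dvd_mul_right 4 b).trans hd
  have hnw : (n : ZMod q) = -w := by
    rw [(ZMod.natCast_eq_natCast_iff _ _ _).2 hn1, ZMod.natCast_zmod_val]
  refine ⟨n, hd, ?_, fun _ h => hw1 ?_⟩
  · have h5 : J(-(n : ℤ) | q) = -1 := ZMod.nonsquare_iff_jacobiSym_eq_neg_one.2 (by simpa [hnw] using hw)
    rw [jacobiSym.neg _ (Nat.odd_iff.2 hqo)] at h5
    rcases Nat.odd_mod_four_iff.1 hqo with h | h
    · rw [ZMod.χ₄_nat_one_mod_four h, one_mul] at h5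
      rw [jacobiSym.quadratic_reciprocity_one_mod_four h (Nat.odd_iff.2 (by omega)), h5]
    · rw [ZMod.χ₄_nat_three_mod_four h, neg_one_mul] at h5
      rw [jacobiSym.quadratic_reciprocity_three_mod_four h (by omega), h5]
  · have h6 := (ZMod.natCast_eq_zero_iff _ _).2 h
    rw [Nat.cast_sub (by omega), hnw, Nat.cast_one] at h6
    linear_combination -h6

open scoped NumberTheorySymbols in
theorem acls_nat {A : ℕ} (hA : ¬ IsSquare A) :
    ∃ n, Odd n ∧ J((A : ℤ) | n) = -1 ∧ ∀ l : ℕ, l.Prime → 3 ≤ l → l ∣ A → ¬ l ∣ n - 1 := by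
  obtain ⟨m, k, rfl, hm⟩ := Nat.sq_mul_squarefree A
  have hk : k ≠ 0 := fun h => hA (by simp [h])
  by_cases hq : ∃ q, q.Prime ∧ q ∣ m ∧ q ≠ 3
  · obtain ⟨q, hq, ⟨m', rfl⟩, h3⟩ := hq
    have hm' : ¬ q ∣ m' := fun h => hq.not_isUnit (hm q (mul_dvd_mul_left q h))
    obtain ⟨j, k', hk', rfl⟩ := Nat.exists_eq_pow_mul_and_not_dvd hk q hq.ne_one
    have hb : ¬ q ∣ m' * k' ^ 2 := fun h =>
      (hq.dvd_mul.1 h).elim hm' fun h => hk' (hq.dvd_of_dvd_pow h)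
    obtain ⟨n, h1, h2, h4⟩ := acls_prime hq h3 hb
    have h5 : 4 ∣ n + 1 := (dvd_mul_right 4 _).trans h1
    have hn : Odd n := Nat.odd_iff.2 (by omega)
    rw [show (q ^ j * k') ^ 2 * (q * m') = q ^ (2 * j + 1) * (m' * k' ^ 2) by ring]
    refine ⟨n, hn, ?_, fun l hl hl3 h => ?_⟩
    · rw [Nat.cast_mul, jacobiSym.mul_left, acls_one h1, Nat.cast_pow, jacobiSym.pow_left, h2,
        Odd.neg_one_pow ⟨j, rfl⟩, mul_one]
    · rcases hl.dvd_mul.1 h with h | h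
      · obtain rfl := (Nat.prime_dvd_prime_iff_eq hl hq).1 (hl.dvd_of_dvd_pow h)
        exact h4 hl3
      · exact acls_not_dvd hl3 hn ((h.mul_left 4).trans h1)
  · have h1 : m ∣ 3 := by
      have h2 := Nat.eq_prime_pow_of_unique_prime_dvd (p := 3) hm.ne_zero fun {d} hd hd' => by
        by_contra h
        exact hq ⟨d, hd, hd', h⟩
      rw [← hm.dvd_pow_iff_dvd (n := m.primeFactorsList.length + 1) (by omega), pow_succ, ← h2]
      exact dvd_mul_right _ _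
    rcases (Nat.dvd_prime Nat.prime_three).1 h1 with rfl | rfl
    · exact absurd ⟨k, by ring⟩ hA
    obtain ⟨j, k', hk', rfl⟩ := Nat.exists_eq_pow_mul_and_not_dvd hk 2 (by norm_num)
    obtain ⟨n, hn⟩ : ∃ n, n + 1 = 6 * k' := ⟨6 * k' - 1, by omega⟩
    have hno : Odd n := Nat.odd_iff.2 (by omega)
    refine ⟨n, hno, ?_, fun l hl hl3 h => acls_not_dvd hl3 hno ?_⟩
    · have hco : Nat.Coprime (2 ^ j * k') n := by
        refine Nat.Coprime.mul_left (Nat.Coprime.pow_left _ (Nat.coprime_two_left.2 hno)) ?_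
        refine Nat.Coprime.coprime_dvd_left (k := n + 1) ⟨6, by omega⟩ (by simp)
      rw [Nat.cast_mul, jacobiSym.mul_left, Nat.cast_pow, jacobiSym.sq_one' (by rw [Int.gcd_natCast_natCast]; exact hco),
        one_mul,
        jacobiSym.quadratic_reciprocity_one_mod_four' (by decide) (by omega),
        jacobiSym.mod_left' (a₂ := 2) (by omega)]
      norm_num
    · rw [hn]
      rcases hl.dvd_mul.1 h with h | h
      · rcases hl.dvd_mul.1 (hl.dvd_of_dvd_pow h) with h | h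
        · have := Nat.le_of_dvd two_pos (hl.dvd_of_dvd_pow h)
          omega
        · exact h.mul_left 6
      · exact (h.trans (by norm_num)).mul_right k'

open scoped NumberTheorySymbols in
theorem acls_int {a : ℤ} (ha : ¬ IsSquare a) :
    ∃ n, Odd n ∧ J(a | n) = -1 ∧ ∀ l : ℕ, l.Prime → 3 ≤ l → l ∣ a.natAbs → ¬ l ∣ n - 1 := by
  obtain ⟨A, rfl | rfl⟩ := a.eq_nat_or_neg
  · exact acls_nat fun h => ha (Int.isSquare_natCast_iff.2 h)
  · have hA : 0 < A := Nat.pos_of_ne_zero fun h => ha (by simp [h])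
    obtain ⟨n, hn⟩ : ∃ n, n + 1 = 4 * A := ⟨4 * A - 1, by omega⟩
    have hno : Odd n := Nat.odd_iff.2 (by omega)
    refine ⟨n, hno, ?_, fun l _ hl3 h => acls_not_dvd hl3 hno ?_⟩
    · rw [jacobiSym.neg _ hno, acls_one hn.symm.dvd, ZMod.χ₄_nat_three_mod_four (by omega), mul_one]
    · rw [hn]
      exact Dvd.dvd.mul_left (by simpa using h) 4

/-- One class modulo `W₀ = 8 |a|`; write `ϱ = r + 1` for the class of `p`.  Use the Jacobi symbol
`J(a | n)`, which depends only on `n mod 4|a|` for odd `n` (`jacobiSym.mod_right`).  If `a < 0` take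
`ϱ = W₀ - 1`.  If `a > 0` pick a prime `q` with odd exponent, `a = q^e b`; for `q ≥ 5` take
`ϱ ≡ -1` modulo the part of `W₀` prime to `q` and `ϱ ≡ u (mod q)` with `u ≢ 0, 1`, `(-u/q) = -1`;
if the only primes with odd exponent are `2, 3` take `ϱ ≡ -1` modulo the odd part of `a` and
`ϱ ≡ 3, 5, 3 (mod 8)` for `a = 2k², 3k², 6k²`.  (Any other proof is fine.) -/
theorem exists_class0 (a : ℤ) (hsq : ¬ IsSquare a) : ∃ W₀ r : ℕ, 2 ∣ W₀ ∧ r < W₀ ∧
    Nat.Coprime (r + 1) W₀ ∧ (∀ l : ℕ, l.Prime → 3 ≤ l → l ∣ W₀ → ¬ l ∣ r) ∧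
    ∀ p : ℕ, p.Prime → (p - 1) % W₀ = r → ¬ (p : ℤ) ∣ a ∧ ¬ IsSquare (a : ZMod p) := by
  obtain ⟨n, hn, hJ, hl⟩ := acls_int hsq
  have hA : 0 < a.natAbs := Int.natAbs_pos.2 fun h => hsq (by simp [h])
  have hn0 := hn.pos
  have hmod : (n - 1) % (4 * a.natAbs) + 1 ≡ n [MOD 4 * a.natAbs] := by
    have := (Nat.mod_modEq (n - 1) (4 * a.natAbs)).add_right 1
    rwa [Nat.sub_add_cancel hn0] at this
  refine ⟨4 * a.natAbs, (n - 1) % (4 * a.natAbs), ⟨2 * a.natAbs, by ring⟩, Nat.mod_lt _ (by omega), ?_,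
    fun l hp hl3 h h' => hl l hp hl3 ?_ ((Nat.dvd_mod_iff h).1 h'), fun p hp h => ?_⟩
  · rw [Nat.Coprime, hmod.gcd_eq]
    refine Nat.Coprime.mul_right ((Nat.coprime_two_right.2 hn).pow_right 2) ?_
    by_contra h
    have := jacobiSym.eq_zero_iff.2 ⟨hn0.ne', (fun h' => h (Nat.Coprime.symm h') : a.gcd n ≠ 1)⟩
    omega
  · refine (hp.dvd_mul.1 h).resolve_left fun h4 => ?_
    have := Nat.le_of_dvd two_pos (hp.dvd_of_dvd_pow (m := 2) (n := 2) h4)
    omega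
  · have h1 : p ≡ n [MOD 4 * a.natAbs] := by
      have := Nat.ModEq.add_right 1 (h : p - 1 ≡ n - 1 [MOD 4 * a.natAbs])
      rwa [Nat.sub_add_cancel hn0, Nat.sub_add_cancel hp.one_le] at this
    have h2 : p % 2 = n % 2 := h1.of_dvd ⟨2 * a.natAbs, by ring⟩
    have h3 : jacobiSym a p = -1 := by
      rw [jacobiSym.mod_right a (Nat.odd_iff.2 (h2.trans (Nat.odd_iff.1 hn))), h1,
        ← jacobiSym.mod_right a hn, hJ]
    have h4 := ZMod.nonsquare_of_jacobiSym_eq_neg_one h3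
    exact ⟨fun h => h4 (by rw [(ZMod.intCast_zmod_eq_zero_iff_dvd _ _).2 h]; exact IsSquare.zero), h4⟩

theorem acls_Vz (y : ℕ) : Vz (gP 2) (y + 1 : ℕ) =
    Vz (gP 2) y * if (y + 1).Prime then 1 - gP 2 (y + 1) else 1 := by
  simp only [Vz, primesIoc, Nat.floor_natCast, Nat.floor_zero, prod_filter]
  rw [prod_Ioc_succ_top (Nat.zero_le y)]

theorem acls_ind {W₀ r : ℕ} (h2 : 2 ∣ W₀) (hr : r < W₀) (hco : Nat.Coprime (r + 1) W₀)
    (hl : ∀ l : ℕ, l.Prime → 3 ≤ l → l ∣ W₀ → ¬ l ∣ r) (y : ℕ) :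
    ∃ (W : ℕ) (𝒮 : Finset ℕ), W₀ ∣ W ∧ 1 ≤ W ∧ (∀ l : ℕ, l.Prime → l ∣ W → l ∣ W₀ ∨ l ≤ y) ∧
      (∀ s ∈ 𝒮, s < W ∧ Nat.Coprime (s + 1) W ∧ s % W₀ = r ∧
        ∀ l : ℕ, l.Prime → 3 ≤ l → l ≤ y → l ∣ W ∧ ¬ l ∣ s) ∧
      Vz (gP 2) y / (Nat.totient W₀ : ℝ) ≤ (𝒮.card : ℝ) / (Nat.totient W : ℝ) := by
  induction y with
  | zero =>
    refine ⟨W₀, {r}, dvd_rfl, by omega, fun l _ h => Or.inl h, fun s hs => ?_, by simp [Vz, primesIoc]⟩
    obtain rfl := mem_singleton.1 hs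
    exact ⟨hr, hco, Nat.mod_eq_of_lt hr, fun l _ _ _ => by omega⟩
  | succ y ih =>
    obtain ⟨W, 𝒮, h1, hW, h3, h4, h5⟩ := ih
    have hV := Vz_nonneg (dens_gP 2 dvd_rfl) y
    by_cases hc : (y + 1).Prime ∧ ¬ y + 1 ∣ W
    · obtain ⟨hp, hd⟩ := hc
      rw [acls_Vz, if_pos hp]
      set l := y + 1 with hly
      have hl2 : l ≠ 2 := fun h => hd (h ▸ h2.trans h1)
      have hl3 : 3 ≤ l := by have := hp.two_le; omega
      have hWl : Nat.Coprime W l := (hp.coprime_iff_not_dvd.2 hd).symm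
      set f : ℕ × ℕ → ℕ := fun z => Nat.chineseRemainder hWl z.1 z.2 with hf
      have f1 : ∀ z, f z ≡ z.1 [MOD W] := fun z => (Nat.chineseRemainder hWl z.1 z.2).2.1
      have f2 : ∀ z, f z ≡ z.2 [MOD l] := fun z => (Nat.chineseRemainder hWl z.1 z.2).2.2
      refine ⟨W * l, (𝒮 ×ˢ Ico 1 (l - 1)).image f, h1.mul_right l, Nat.mul_pos hW hp.pos,
        fun q hq h => ?_, fun s hs => ?_, ?_⟩
      · rcases hq.dvd_mul.1 h with h | h
        · exact (h3 q hq h).imp id fun h => by omega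
        · exact Or.inr (Nat.le_of_dvd hp.pos h)
      · obtain ⟨z, hz, rfl⟩ := mem_image.1 hs
        obtain ⟨hz1, hz2⟩ := mem_product.1 hz
        obtain ⟨-, a2, a3, a4⟩ := h4 _ hz1
        rw [mem_Ico] at hz2
        refine ⟨Nat.chineseRemainder_lt_mul hWl _ _ (by omega) hp.ne_zero, Nat.Coprime.mul_right ?_ ?_,
          Eq.trans ((f1 z).of_dvd h1) a3, fun q hq hq3 hqy => ?_⟩
        · rw [Nat.Coprime, ((f1 z).add_right 1).gcd_eq]
          exact a2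
        · rw [Nat.Coprime, ((f2 z).add_right 1).gcd_eq]
          exact (hp.coprime_iff_not_dvd.2 (Nat.not_dvd_of_pos_of_lt (by omega) (by omega))).symm
        · rcases eq_or_ne q l with rfl | hne
          · exact ⟨dvd_mul_left _ _, fun h => Nat.not_dvd_of_pos_of_lt (by omega) (by omega)
              (((f2 z).dvd_iff dvd_rfl).1 h)⟩
          · obtain ⟨b1, b2⟩ := a4 q hq hq3 (by omega)
            exact ⟨b1.mul_right l, fun h => b2 (((f1 z).dvd_iff b1).1 h)⟩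
      · rw [card_image_of_injOn, card_product, Nat.card_Ico, Nat.totient_mul hWl, Nat.totient_prime hp, gP,
          ind_pos ((Nat.coprime_primes hp Nat.prime_two).2 hl2), Nat.totient_prime hp]
        · have e1 : ((l - 1 - 1 : ℕ) : ℝ) = ((l - 1 : ℕ) : ℝ) - 1 := by
            rw [Nat.cast_sub (by omega), Nat.cast_one]
          have e2 : (1 : ℝ) ≤ ((l - 1 : ℕ) : ℝ) := by exact_mod_cast (by omega : 1 ≤ l - 1)
          rw [Nat.cast_mul, Nat.cast_mul, e1, mul_div_mul_comm, mul_div_right_comm, sub_div,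
            div_self (by linarith)]
          refine mul_le_mul_of_nonneg_right h5 (sub_nonneg.2 (div_le_one_of_le₀ e2 (by linarith)))
        · intro z hz z' hz' h
          obtain ⟨a1, a2⟩ := mem_product.1 (mem_coe.1 hz)
          obtain ⟨b1, b2⟩ := mem_product.1 (mem_coe.1 hz')
          rw [mem_Ico] at a2 b2
          exact Prod.ext (((f1 z).symm.trans (h ▸ f1 z')).eq_of_lt_of_lt (h4 _ a1).1 (h4 _ b1).1)
            (((f2 z).symm.trans (h ▸ f2 z')).eq_of_lt_of_lt (by omega) (by omega))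
    · refine ⟨W, 𝒮, h1, hW, fun q hq h => (h3 q hq h).imp id fun h => by omega, fun s hs => ?_,
        le_trans (div_le_div_of_nonneg_right ?_ (Nat.cast_nonneg _)) h5⟩
      · obtain ⟨a1, a2, a3, a4⟩ := h4 s hs
        refine ⟨a1, a2, a3, fun q hq hq3 hqy => ?_⟩
        rcases eq_or_ne q (y + 1) with rfl | hne
        · have b1 : y + 1 ∣ W := by_contra fun h => hc ⟨hq, h⟩
          have b2 : y + 1 ∣ W₀ := (h3 _ hq b1).resolve_right (by omega)
          exact ⟨b1, fun h => hl _ hq hq3 b2 (a3 ▸ (Nat.dvd_mod_iff b2).2 h)⟩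
        · exact a4 q hq hq3 (by omega)
      · rw [acls_Vz]
        refine mul_le_of_le_one_right hV ?_
        have := (dens_gP 2 dvd_rfl).nonneg (y + 1)
        split_ifs <;> linarith

/-- Induction on `y`: keep `W₀ ∣ W`, every prime factor of `W` divides `W₀` or is `≤ y`, every
odd prime `l ≤ y` divides `W` and no `s ∈ 𝒮`, `s % W₀ = r`, and
`Vz (gP 2) y / φ(W₀) ≤ #𝒮 / φ(W)`.  A new prime `l ∤ W` replaces `W` by `W l` and `𝒮` by the
residues `s' < W l` with `s' % W ∈ 𝒮`, `s' ≢ 0, -1 (mod l)`; there are `#𝒮 (l - 2)` of them.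
Finally `Vz_gP` and `V1_bounds`. -/
theorem exists_classes (a : ℤ) (hsq : ¬ IsSquare a) : ∃ c : ℝ, 0 < c ∧ ∀ y : ℕ, 4 ≤ y →
    ∃ (W : ℕ) (𝒮 : Finset ℕ), Cls W 𝒮 ∧ Good a y W 𝒮 ∧
      c / Real.log y ≤ (𝒮.card : ℝ) / (Nat.totient W : ℝ) := by
  obtain ⟨W₀, r, h2, hr, hco, hl, hp⟩ := exists_class0 a hsq
  obtain ⟨C, hC, hV⟩ := V1_bounds
  have hφ : (0 : ℝ) < Nat.totient W₀ := by exact_mod_cast Nat.totient_pos.2 (by omega)
  refine ⟨1 / (C * Nat.totient W₀), by positivity, fun y hy => ?_⟩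
  obtain ⟨W, 𝒮, h1, hW, -, h4, h5⟩ := acls_ind h2 hr hco hl y
  have hy' : (4 : ℝ) ≤ y := by exact_mod_cast hy
  refine ⟨W, 𝒮, ⟨hW, fun s hs => ⟨(h4 s hs).1, (h4 s hs).2.1⟩⟩, fun p hpp hs => ?_, le_trans ?_ h5⟩
  · obtain ⟨-, -, a3, a4⟩ := h4 _ hs
    rw [Nat.mod_mod_of_dvd _ h1] at a3
    refine ⟨(hp p hpp a3).1, (hp p hpp a3).2, fun l hl' hl3 hly h => ?_⟩
    obtain ⟨b1, b2⟩ := a4 l hl' hl3 hly
    exact b2 ((Nat.dvd_mod_iff b1).2 h)
  · have b1 := (Vz_gP (c := 2) dvd_rfl hy' le_rfl fun p _ h => by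
      have : (p : ℝ) ≤ 2 := by exact_mod_cast Nat.le_of_dvd two_pos h
      linarith).1
    have b2 := (hV y (by linarith)).1
    calc _ = 1 / (C * Real.log y) / Nat.totient W₀ := by rw [div_div, div_div]; ring
      _ ≤ _ := div_le_div_of_nonneg_right (b2.trans b1) hφ.le

end Crest.Agent.R027
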