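import Crest.Agent.R027.APool

set_option autoImplicit false

namespace Crest.Agent.R027

open Finset Filter Crest.Agent.R008 Crest.Agent.R026

theorem fA_le_one {W : ℕ} {𝒮 : Finset ℕ} {x δ : ℝ} (hx : 1 < x) (hδ : δ ≤ 1 / 10) {n : ℕ}
    (h1 : 1 ≤ n) (h2 : (n : ℝ) ≤ x) : 0 ≤ fA W 𝒮 x δ n ∧ fA W 𝒮 x δ n ≤ 1 := by
  classical
  refine ⟨sum_nonneg fun _ _ => ind_nonneg _, ?_⟩
  unfold fA
  rw [sum_ind]
  have hx0 : 0 < x := by linarith
  have : ((primesIoc (x ^ (1 - 3 * δ)) (x ^ (1 - 2 * δ))).filter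
      fun Q => n % W ∈ 𝒮 ∧ Q ∣ n).card ≤ 1 := by
    refine card_le_one.2 fun a ha b hb => ?_
    by_contra hne
    obtain ⟨a1, -, a2⟩ := mem_filter.1 ha
    obtain ⟨b1, -, b2⟩ := mem_filter.1 hb
    obtain ⟨a3, a4, -⟩ :=
      (mem_primesIoc (Real.rpow_nonneg hx0.le _) (Real.rpow_nonneg hx0.le _)).1 a1
    obtain ⟨b3, b4, -⟩ :=
      (mem_primesIoc (Real.rpow_nonneg hx0.le _) (Real.rpow_nonneg hx0.le _)).1 b1
    have h3 : a * b ≤ n := Nat.le_of_dvd h1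
      (Nat.Coprime.mul_dvd_of_dvd_of_dvd ((Nat.coprime_primes a3 b3).2 hne) a2 b2)
    have h4 : (a : ℝ) * b ≤ n := by exact_mod_cast h3
    have h5 : x ≤ x ^ (1 - 3 * δ) * x ^ (1 - 3 * δ) := by
      rw [← Real.rpow_add hx0]
      conv_lhs => rw [← Real.rpow_one x]
      exact Real.rpow_le_rpow_of_exponent_le hx.le (by linarith)
    have h6 : 0 < x ^ (1 - 3 * δ) := Real.rpow_pos_of_pos hx0 _
    have h7 := mul_lt_mul'' a4 b4 h6.le h6.le
    linarith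
  exact_mod_cast this

theorem alow_class {y y' : ℝ} (hy0 : 0 ≤ y) (hyy : y ≤ y') {q e r : ℕ} (hq : 1 ≤ q) (he : 1 ≤ e)
    (hr : Nat.Coprime r e) :
    |∑ n ∈ natIoc y y', ind (q ∣ n) * ind (n ≡ r [MOD e]) - 1 / e * gE e q * (y' - y)| ≤ 1 := by
  unfold gE
  by_cases hc : Nat.Coprime q e
  · obtain ⟨t, ht1, ht2⟩ := Nat.chineseRemainder hc 0 r
    have h1 := count_class y y' hy0 hyy (q * e) t (Nat.mul_pos hq he)
    have h2 : ∑ n ∈ natIoc y y', ind (q ∣ n) * ind (n ≡ r [MOD e]) =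
        ∑ n ∈ natIoc y y', ind (n ≡ t [MOD q * e]) := by
      refine sum_congr rfl fun n _ => ?_
      rw [← ind_and]
      refine ind_congr ?_
      rw [← Nat.modEq_and_modEq_iff_modEq_mul hc, ← Nat.modEq_zero_iff_dvd]
      exact ⟨fun h => ⟨h.1.trans ht1.symm, h.2.trans ht2.symm⟩,
        fun h => ⟨h.1.trans ht1, h.2.trans ht2⟩⟩
    rw [h2, ind_pos hc]
    have h3 : 1 / (e : ℝ) * (1 / (q : ℝ)) * (y' - y) = (y' - y) / ((q * e : ℕ) : ℝ) := by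
      push_cast
      field_simp
    rw [h3]
    exact h1
  · have h2 : ∑ n ∈ natIoc y y', ind (q ∣ n) * ind (n ≡ r [MOD e]) = 0 := by
      refine sum_eq_zero fun n _ => ?_
      rw [← ind_and]
      refine ind_neg fun h => hc ?_
      have h1 : Nat.gcd q e ∣ n := (Nat.gcd_dvd_left q e).trans h.1
      have h3 : Nat.gcd q e ∣ r := (h.2.dvd_iff (Nat.gcd_dvd_right q e)).1 h1
      exact Nat.eq_one_of_dvd_coprimes hr h3 (Nat.gcd_dvd_right q e)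
    rw [h2, ind_neg hc]
    simp

/-- Level of distribution (`count_class`, Chinese remainder theorem; compare `lev_gE`). -/
theorem lev_cls {W : ℕ} {𝒮 : Finset ℕ} (h : Cls W 𝒮) (x D : ℝ) (hx : 2 ≤ x) {Q : ℕ} (hQ : 1 ≤ Q)
    (hQW : Nat.Coprime Q W) :
    Lev x D (fun n => ind (n % W ∈ 𝒮 ∧ Q ∣ n)) (𝒮.card / (W * Q)) (gE (W * Q)) (fun _ => W) := by
  classical
  intro q hq _ y y' hy hyy _
  have hy0 : 0 ≤ y := by linarith
  have hpos : ∀ n ∈ natIoc y y', 1 ≤ n := fun n hn => by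
    have := ((mem_natIoc hy0 (hy0.trans hyy)).1 hn).1
    have : (0 : ℝ) < n := by linarith
    exact_mod_cast this
  have key : ∀ s ∈ 𝒮, |∑ n ∈ natIoc y y', ind (q ∣ n) * ind ((n - 1) % W = s ∧ Q ∣ n - 1) -
      1 / ((W * Q : ℕ) : ℝ) * gE (W * Q) q * (y' - y)| ≤ 1 := by
    intro s hs
    obtain ⟨hs1, hs2⟩ := h.2 s hs
    obtain ⟨r, hr1, hr2⟩ := Nat.chineseRemainder hQW.symm (s + 1) 1
    have hr : Nat.Coprime r (W * Q) := by
      refine Nat.Coprime.mul_right ?_ ?_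
      · unfold Nat.Coprime
        rw [hr1.gcd_eq]
        exact hs2
      · unfold Nat.Coprime
        rw [hr2.gcd_eq]
        exact Nat.gcd_one_left _
    convert alow_class hy0 hyy hq (Nat.mul_pos h.1 hQ) hr using 3
    refine sum_congr rfl fun n hn => ?_
    congr 1
    refine ind_congr ?_
    have h1 := hpos n hn
    have e1 : (n - 1) % W = s ↔ n ≡ s + 1 [MOD W] := by
      constructor
      · intro h'
        have : n - 1 ≡ s [MOD W] := by rw [← h']; exact (Nat.mod_modEq _ _).symm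
        have := this.add_right 1
        rwa [Nat.sub_add_cancel h1] at this
      · intro h'
        rw [← Nat.sub_add_cancel h1] at h'
        have := Nat.ModEq.add_right_cancel' 1 h'
        rwa [Nat.ModEq, Nat.mod_eq_of_lt hs1] at this
    rw [e1, ← Nat.modEq_and_modEq_iff_modEq_mul hQW.symm, ← Nat.modEq_iff_dvd' h1]
    exact ⟨fun h => ⟨h.1.trans hr1.symm, h.2.symm.trans hr2.symm⟩,
      fun h => ⟨h.1.trans hr1, (h.2.trans hr2).symm⟩⟩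
  have e2 : ∑ n ∈ natIoc y y', ind (q ∣ n) * ind ((n - 1) % W ∈ 𝒮 ∧ Q ∣ n - 1) -
      (𝒮.card : ℝ) / (W * Q) * gE (W * Q) q * (y' - y) =
      ∑ s ∈ 𝒮, (∑ n ∈ natIoc y y', ind (q ∣ n) * ind ((n - 1) % W = s ∧ Q ∣ n - 1) -
        1 / ((W * Q : ℕ) : ℝ) * gE (W * Q) q * (y' - y)) := by
    rw [sum_sub_distrib, sum_comm, sum_const, nsmul_eq_mul]
    congr 1
    · refine sum_congr rfl fun n _ => ?_
      rw [← mul_sum]
      congr 1
      simp only [ind_and, ← sum_mul]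
      congr 1
      simp only [ind_eq_ite]
      rw [sum_ite_eq]
    · push_cast
      ring
  beta_reduce
  rw [e2]
  refine (abs_sum_le_sum_abs _ _).trans ((sum_le_card_nsmul _ _ 1 key).trans ?_)
  rw [nsmul_eq_mul, mul_one]
  have : 𝒮.card ≤ W := by
    have := card_le_card (s := 𝒮) (t := range W) fun s hs => mem_range.2 (h.2 s hs).1
    rwa [card_range] at this
  exact_mod_cast this

theorem alow_mul {W : ℕ} {𝒮 : Finset ℕ} {x δ : ℝ} (hx : 1 ≤ x) (hδ : δ ≤ 1 / 10) {p : ℕ}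
    (hp : p.Prime) (h1 : p ≡ 1 [MOD W]) (h2 : (p : ℝ) ≤ x ^ δ) (n : ℕ) :
    fA W 𝒮 x δ (p * n) = fA W 𝒮 x δ n := by
  refine sum_congr rfl fun Q hQ => ind_congr ?_
  have hx0 : 0 ≤ x := by linarith
  obtain ⟨q1, q2, -⟩ := (mem_primesIoc (Real.rpow_nonneg hx0 _) (Real.rpow_nonneg hx0 _)).1 hQ
  have h3 : x ^ δ ≤ x ^ (1 - 3 * δ) := Real.rpow_le_rpow_of_exponent_le hx (by linarith)
  have h4 : p * n % W = n % W := by
    have := h1.mul_right n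
    rwa [one_mul] at this
  have h5 : Nat.Coprime Q p := (Nat.coprime_primes q1 hp).2 fun h => by
    rw [h] at q2
    linarith
  rw [h4, h5.dvd_mul_left]

theorem alow_Vz {W Q : ℕ} (hW : 1 ≤ W) (hQ : Q.Prime) {z : ℝ} (h1 : (W : ℝ) ≤ z) (h2 : z < Q) :
    1 / ((W : ℝ) * Q) * Vz (gE (W * Q)) z = 1 / (Nat.totient W : ℝ) * (1 / Q) * V1 z := by
  have hW0 : (0 : ℝ) < W := by exact_mod_cast hW
  have hQ0 : (0 : ℝ) < Q := by exact_mod_cast hQ.pos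
  have hφ : (0 : ℝ) < Nat.totient W := by exact_mod_cast Nat.totient_pos.2 hW
  have e1 : Vz (gE (W * Q)) z = Vz (gE W) z := by
    refine prod_congr rfl fun p hp => ?_
    have h3 := (mem_primesIoc le_rfl (by linarith)).1 hp
    have h4 : Nat.Coprime p Q := (Nat.coprime_primes h3.1 hQ).2 fun h => by
      rw [h] at h3
      linarith [h3.2.2]
    unfold gE
    rw [ind_congr (P := Nat.Coprime p (W * Q)) (Q := Nat.Coprime p W)
      ⟨fun h => Nat.Coprime.coprime_mul_right_right h, fun h => Nat.Coprime.mul_right h h4⟩]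
  have e2 := tk_Vz (z := z) (e := W) (s := W.primeFactors)
    (fun p hp => tk_mem (Nat.prime_of_mem_primeFactors hp)
      (le_trans (by exact_mod_cast Nat.le_of_mem_primeFactors hp) h1))
    fun p hp => by rw [Nat.mem_primeFactors]; exact ⟨fun h => ⟨hp, h, by omega⟩, fun h => h.2.1⟩
  have e3 : (Nat.totient W : ℝ) = W * ∏ p ∈ W.primeFactors, (1 - 1 / (p : ℝ)) := by
    have := congrArg (Rat.cast : ℚ → ℝ) (Nat.totient_eq_mul_prod_factors W)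
    push_cast at this
    simpa only [one_div] using this
  have e4 : ∏ p ∈ W.primeFactors, (1 - 1 / (p : ℝ)) = Nat.totient W / W := by
    rw [e3]; field_simp
  rw [e1, ← e2, e4]
  field_simp

theorem alow_mert {δ : ℝ} (hδ : 0 < δ) (hδ1 : δ ≤ 1 / 10) : ∀ᶠ x : ℝ in atTop,
    δ / 2 ≤ ∑ Q ∈ primesIoc (x ^ (1 - 3 * δ)) (x ^ (1 - 2 * δ)), (1 : ℝ) / Q := by
  obtain ⟨C, hC, h⟩ := mertAux_mom
  filter_upwards [eventually_gt_atTop 1, Real.tendsto_log_atTop.eventually_ge_atTop (4 * C / δ)]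
    with x hx hL
  have hx0 : 0 < x := by linarith
  have hL0 : 0 < Real.log x := Real.log_pos hx
  have a1 : 1 ≤ x ^ (1 - 3 * δ) := Real.one_le_rpow hx.le (by linarith)
  have a2 : x ^ (1 - 3 * δ) ≤ x ^ (1 - 2 * δ) := Real.rpow_le_rpow_of_exponent_le hx.le (by linarith)
  have a3 : x ^ (1 - 2 * δ) ≤ x := by
    conv_rhs => rw [← Real.rpow_one x]
    exact Real.rpow_le_rpow_of_exponent_le hx.le (by linarith)
  have h1 := abs_le.1 (h 0 _ a1)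
  have h2 := abs_le.1 (h 0 _ (a1.trans a2))
  simp only [pow_zero, one_mul, mul_one, zero_add, pow_one, Nat.cast_zero, div_one,
    Real.log_rpow hx0] at h1 h2
  have h3 : ∑ p ∈ primesIoc 0 (x ^ (1 - 2 * δ)), Real.log p / p =
      ∑ p ∈ primesIoc 0 (x ^ (1 - 3 * δ)), Real.log p / p +
        ∑ p ∈ primesIoc (x ^ (1 - 3 * δ)) (x ^ (1 - 2 * δ)), Real.log p / p := by
    simp only [primesIoc, sum_filter]
    rw [sum_Ioc_consecutive _ (Nat.floor_mono (by linarith)) (Nat.floor_mono a2)]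
  have h4 : ∑ p ∈ primesIoc (x ^ (1 - 3 * δ)) (x ^ (1 - 2 * δ)), Real.log p / p ≤
      Real.log x * ∑ Q ∈ primesIoc (x ^ (1 - 3 * δ)) (x ^ (1 - 2 * δ)), (1 : ℝ) / Q := by
    rw [mul_sum]
    refine sum_le_sum fun p hp => ?_
    obtain ⟨p1, -, p3⟩ := (mem_primesIoc (by linarith) (by linarith)).1 hp
    rw [mul_one_div]
    exact div_le_div_of_nonneg_right
      (Real.log_le_log (by exact_mod_cast p1.pos) (p3.trans a3)) (Nat.cast_nonneg _)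
  rw [div_le_iff₀ hδ] at hL
  refine le_of_mul_le_mul_left ?_ hL0
  nlinarith [h1.2, h2.1]

theorem alow_data {W : ℕ} {𝒮 : Finset ℕ} (h : Cls W 𝒮) {N KB : ℕ} {x ε δ γ η : ℝ} (hN : 1 ≤ N)
    (hx : 2 ≤ x) (hε : 0 ≤ ε) (hγ : 0 ≤ γ) (hη : 0 ≤ η) (hεδ : ε ≤ δ) (hδ : δ ≤ 1 / 10)
    (hz : zN N ≤ x ^ δ) (hWz : (W : ℝ) ≤ zN N) (hWε : (W : ℝ) ≤ x ^ ε)
    (hK : (W : ℝ) * (N : ℝ) ^ KB ≤ x ^ δ) {F Gerr : ℕ → ℝ}
    (hF : ∀ n : ℕ, 1 ≤ n → (n : ℝ) ≤ x →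
      0 ≤ F n ∧ F n ≤ fA W 𝒮 x δ n ∧ fA W 𝒮 x δ n - Gerr n ≤ F n)
    (herr : ∑ n ∈ natIoc (x / 2) x, ind (Rough (x ^ ε) n) * Gerr (n - 1) ≤ η * (V1 (x ^ ε) * x)) :
    Data N KB x ε δ γ F (primesIoc (x ^ (1 - 3 * δ)) (x ^ (1 - 2 * δ)))
      (fun Q n => ind (n % W ∈ 𝒮 ∧ Q ∣ n)) (fun Q => (𝒮.card : ℝ) / (W * Q))
      (fun Q => gE (W * Q)) (fun _ _ => W) Gerr
      ((𝒮.card : ℝ) / (Nat.totient W : ℝ) *
        ∑ Q ∈ primesIoc (x ^ (1 - 3 * δ)) (x ^ (1 - 2 * δ)), (1 : ℝ) / Q) η := by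
  have hx0 : 0 < x := by linarith
  have hmem : ∀ Q ∈ primesIoc (x ^ (1 - 3 * δ)) (x ^ (1 - 2 * δ)), Q.Prime ∧ x ^ δ < Q := by
    intro Q hQ
    obtain ⟨q1, q2, -⟩ :=
      (mem_primesIoc (Real.rpow_nonneg hx0.le _) (Real.rpow_nonneg hx0.le _)).1 hQ
    exact ⟨q1, (Real.rpow_le_rpow_of_exponent_le (by linarith) (by linarith)).trans_lt q2⟩
  have hE : 0 ≤ (𝒮.card : ℝ) / (Nat.totient W : ℝ) *
      ∑ Q ∈ primesIoc (x ^ (1 - 3 * δ)) (x ^ (1 - 2 * δ)), (1 : ℝ) / Q :=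
    mul_nonneg (by positivity) (sum_nonneg fun _ _ => by positivity)
  have hV : ∀ z : ℝ, (W : ℝ) ≤ z → z ≤ x ^ δ →
      ∑ Q ∈ primesIoc (x ^ (1 - 3 * δ)) (x ^ (1 - 2 * δ)),
        (𝒮.card : ℝ) / (W * Q) * Vz (gE (W * Q)) z =
      ((𝒮.card : ℝ) / (Nat.totient W : ℝ) *
        ∑ Q ∈ primesIoc (x ^ (1 - 3 * δ)) (x ^ (1 - 2 * δ)), (1 : ℝ) / Q) * V1 z := by
    intro z h1 h2
    rw [mul_sum, sum_mul]
    refine sum_congr rfl fun Q hQ => ?_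
    have := alow_Vz h.1 (hmem Q hQ).1 h1 (h2.trans_lt (hmem Q hQ).2)
    rw [div_eq_mul_one_div, mul_assoc, this]
    ring
  have hxe : x ^ ε ≤ x ^ δ := Real.rpow_le_rpow_of_exponent_le (by linarith) hεδ
  have hγε : 0 ≤ γ * ε := mul_nonneg hγ hε
  refine ⟨hE, hη, fun Q _ => dens_gE _, fun Q _ => by positivity,
    fun Q _ n => ind_nonneg _, fun Q hQ => lev_cls h x _ hx (hmem Q hQ).1.one_le ?_, ?_,
    fun n h1 h2 => (hF n h1 h2).1, fun n h1 h2 => (hF n h1 h2).2.1,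
    fun n h1 h2 => (hF n h1 h2).2.2, herr, (hV _ hWz hz).le, (hV _ hWε hxe).le, ?_,
    fun Q _ a _ _ _ => ?_⟩
  · refine (Nat.Prime.coprime_iff_not_dvd (hmem Q hQ).1).2 fun hd => ?_
    have h1 : (Q : ℝ) ≤ W := by exact_mod_cast Nat.le_of_dvd h.1 hd
    linarith [(hmem Q hQ).2]
  · have h6 : 0 < x ^ (1 - 2 * δ) := Real.rpow_pos_of_pos hx0 _
    have h3 : 0 < x ^ δ := Real.rpow_pos_of_pos hx0 _
    have h2 : ((primesIoc (x ^ (1 - 3 * δ)) (x ^ (1 - 2 * δ))).card : ℝ) ≤ x ^ (1 - 2 * δ) := by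
      refine le_trans ?_ (Nat.floor_le h6.le)
      have : (primesIoc (x ^ (1 - 3 * δ)) (x ^ (1 - 2 * δ))).card ≤ ⌊x ^ (1 - 2 * δ)⌋₊ :=
        (card_filter_le _ _).trans (by rw [Nat.card_Ioc]; omega)
      exact_mod_cast this
    have h4 : x ^ (1 - 2 * δ) * x ^ δ * x ^ δ = x := by
      rw [← Real.rpow_add hx0, ← Real.rpow_add hx0]
      ring_nf
      exact Real.rpow_one x
    have h5 : (0 : ℝ) < (N : ℝ) ^ KB := by positivity
    simp only [sum_const, nsmul_eq_mul, Nat.card_Icc, Nat.add_sub_cancel]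
    rw [le_div_iff₀ h5]
    calc _ = ((primesIoc (x ^ (1 - 3 * δ)) (x ^ (1 - 2 * δ))).card : ℝ) * (⌊x ^ δ⌋₊ : ℝ) *
          ((W : ℝ) * (N : ℝ) ^ KB) := by ring
      _ ≤ x ^ (1 - 2 * δ) * x ^ δ * x ^ δ :=
        mul_le_mul (mul_le_mul h2 (Nat.floor_le h3.le) (Nat.cast_nonneg _) h6.le) hK
          (by positivity) (by positivity)
      _ = x := h4
  · rw [hV _ hWε hxe]
    exact mul_le_of_le_one_left (mul_nonneg hE (low_V1_nonneg _)) (by linarith)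
  · exact div_le_div_of_nonneg_right (by linarith [ind_le_one (Nat.Coprime a (W * Q))])
      (Nat.cast_nonneg _)

/-- Follow the proof of `R026.low_f0` (`low_data`, `low_primes`, `ramare_F`, `tk`), with pools
from `pool_exists_mod` so that `fA` is invariant under multiplication by pool primes.  In `thmB`
take `δ₀ = δ`, `γ = min 1 (1/(2C))`, and in `tk` take `γ' = θ/(3C)`, `η = γ' ε`.  `J = ℕ`,
`S = primesIoc ..`, `E = (#𝒮/φ(W)) ∑ 1/Q` (`tk_Vz`: for `W ≤ z ≤ x^δ`,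
`Vz (gE (W Q)) z * φ(W)/W = V1 z`), and `∑ 1/Q ≥ δ/2` by `mertAux_mom` with `j = 0`. -/
theorem low_fA {δ : ℝ} (hδ : 0 < δ) (hδ1 : δ ≤ 1 / 10) {W : ℕ} {𝒮 : Finset ℕ} (h : Cls W 𝒮)
    (θ : ℝ) (hθ : 0 < θ) : ∀ᶠ x : ℝ in atTop,
    (δ / 8 * ((𝒮.card : ℝ) / (Nat.totient W : ℝ)) - θ) * x ≤
      Real.log x * ∑ p ∈ primesIoc (x / 2) x, fA W 𝒮 x δ (p - 1) := by
  obtain ⟨C, hC, hB⟩ := thmB
  obtain ⟨γ, hγ, hγ1, hγC⟩ : ∃ γ : ℝ, 0 < γ ∧ γ ≤ 1 ∧ C * γ ≤ 1 / 2 := by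
    refine ⟨min 1 (1 / (2 * C)), lt_min one_pos (by positivity), min_le_left _ _, ?_⟩
    refine (mul_le_mul_of_nonneg_left (min_le_right _ _) hC.le).trans_eq ?_
    field_simp
  have hγ' : 0 < θ / (3 * C) := by positivity
  obtain ⟨ε₁, hε₁, hB⟩ := hB δ γ hδ (by linarith) hγ hγ1
  obtain ⟨ε₂, hε₂, htk⟩ := tk (θ / (3 * C)) hγ'
  obtain ⟨ε, hε, hε1, hε2, hεδ⟩ : ∃ ε : ℝ, 0 < ε ∧ ε ≤ ε₁ ∧ ε ≤ ε₂ ∧ ε ≤ δ :=
    ⟨min ε₁ (min ε₂ δ), lt_min hε₁ (lt_min hε₂ hδ), min_le_left _ _,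
      (min_le_right _ _).trans (min_le_left _ _), (min_le_right _ _).trans (min_le_right _ _)⟩
  obtain ⟨T, hB⟩ := hB ε hε hε1
  obtain ⟨c0, hc0, hB⟩ := hB T le_rfl
  obtain ⟨V₀, htk⟩ := htk ε hε hε2 T
  obtain ⟨c1, hU⟩ := pool_exists_mod W h.1 (max V₀ 1) c0 hc0
  obtain ⟨KB, c2, hc2, hB⟩ := hB c1
  obtain ⟨c3, hM⟩ := pool_exists_mod W h.1 V₀ c2 (by omega)
  have key : ∀ᶠ N : ℕ in atTop, ∀ x, XN N x →
      (δ / 8 * ((𝒮.card : ℝ) / (Nat.totient W : ℝ)) - θ) * x ≤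
        Real.log x * ∑ p ∈ primesIoc (x / 2) x, fA W 𝒮 x δ (p - 1) := by
    filter_upwards [hU, hM, hB c3, htk c0 c1 c2 c3 hc0 (by omega), eventually_ge_atTop 2,
      (tendsto_natCast_atTop_atTop (R := ℝ)).eventually_ge_atTop (3 / θ),
      low_ev_pow δ hδ c1 1, low_ev_pow δ hδ c3 1, low_ev_pow δ hδ KB (W : ℝ),
      low_ev_pow ε hε 0 (W : ℝ), par_zN (W : ℝ) 0,
      low_ev_zN δ hδ, eventually_N (alow_mert hδ hδ1),
      eventually_N (low_sqrt (θ / 3) (by positivity)), eventually_N (eventually_ge_atTop (2 : ℝ))]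
      with N hU hM hB htk hN2 hNθ e1 e3 eK eW eWz ez emert esqrt ex2 x hx
    obtain ⟨U, hU, hU1, hUV⟩ := hU
    obtain ⟨M, hM, hM1, hMV⟩ := hM
    have hx2 := ex2 x hx
    have hdis : Disjoint U M := disjoint_left.2 fun p h1 h2 => by
      have h3 : N ^ c1 < N ^ c2 := Nat.pow_lt_pow_right (by omega) hc2
      have h4 := (hU p h1).2.2
      have h5 := (hM p h2).2.1
      omega
    have h01 : ∀ n : ℕ, 1 ≤ n → (n : ℝ) ≤ x → 0 ≤ fA W 𝒮 x δ n ∧ fA W 𝒮 x δ n ≤ 1 :=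
      fun n h1 h2 => fA_le_one (by linarith) hδ1 h1 h2
    obtain ⟨f, hf1, hf⟩ := ramare_F (fun p h => (hU p h).1) (fun p h => (hM p h).1) hdis T x
      (fA W 𝒮 x δ) h01 fun p hp n => by
        rcases mem_union.1 hp with h | h
        · refine alow_mul (by linarith) hδ1 (hU p h).1 (hU1 p h) (le_trans ?_ (e1 x hx)) n
          rw [one_mul]
          exact_mod_cast (hU p h).2.2
        · refine alow_mul (by linarith) hδ1 (hM p h).1 (hM1 p h) (le_trans ?_ (e3 x hx)) n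
          rw [one_mul]
          exact_mod_cast (hM p h).2.2
    have hD := alow_data h (KB := KB) (γ := γ) (by omega) hx2 hε.le hγ.le (mul_pos hγ' hε).le hεδ
      hδ1 (ez x hx) (by simpa using eWz) (by simpa using eW x hx) (eK x hx)
      (Gerr := fun n => ind (Atyp U T M n)) hf
      (htk x hx U M hU hM ((le_max_left _ _).trans hUV) hMV)
    have h1 := hB x hx U M hU ((le_max_right _ _).trans hUV) hM f hf1 _ _ _ _ _ _ _ _ hD
    have h2 := low_primes (z := x ^ ε) hx2 (F := Fw U T M f) (f₀ := fA W 𝒮 x δ)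
      fun n h1 h2 => ⟨(hf n h1 h2).1, (hf n h1 h2).2.1, (h01 n h1 h2).2⟩
    have h3 := emert x hx
    have h5 := esqrt x hx
    set E := ∑ Q ∈ primesIoc (x ^ (1 - 3 * δ)) (x ^ (1 - 2 * δ)), (1 : ℝ) / Q
    set a := (𝒮.card : ℝ) / (Nat.totient W : ℝ) with ha
    have ha0 : 0 ≤ a := by positivity
    have h7 : x / (N : ℝ) ^ 30 ≤ θ / 3 * x := by
      have hN1 : (1 : ℝ) ≤ N := by exact_mod_cast (by omega : 1 ≤ N)
      have h8 : (N : ℝ) ≤ (N : ℝ) ^ 30 := le_self_pow₀ hN1 (by norm_num)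
      rw [div_le_iff₀ hθ] at hNθ
      rw [div_le_iff₀ (by positivity)]
      have h9 : 3 ≤ θ * (N : ℝ) ^ 30 := by nlinarith
      nlinarith
    have h8 : C * (θ / (3 * C) * ε) * x / ε = θ / 3 * x := by field_simp
    have h9 : 1 / 2 * (a * (δ / 2)) ≤ (1 - C * γ) * (a * E) :=
      mul_le_mul (by linarith) (mul_le_mul_of_nonneg_left h3 ha0) (by positivity) (by linarith)
    have h10 := mul_le_mul_of_nonneg_right h9 (show 0 ≤ x / 2 by linarith)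
    rw [h8] at h1
    nlinarith
  filter_upwards [eventually_x key] with x hx
  obtain ⟨N, -, h⟩ := hx
  exact h

end Crest.Agent.R027
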