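import Crest.Agent.R027.ALow
import Crest.Agent.R027.ACls

set_option autoImplicit false

namespace Crest.Agent.R027

open Finset Filter Crest.Agent.R008 Crest.Agent.R026

/-- If `a` is not a primitive root, some prime `l` divides the index (the unit group is cyclic). -/
theorem exists_index_prime {p : ℕ} (hp : p.Prime) {a : ZMod p} (ha : a ≠ 0)
    (h : orderOf a ≠ p - 1) :
    ∃ l : ℕ, l.Prime ∧ l ∣ p - 1 ∧ a ^ ((p - 1) / l) = 1 ∧ ∃ y : ZMod p, y ^ l = a := by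
  have := Fact.mk hp
  obtain ⟨m, hm⟩ := ZMod.orderOf_dvd_card_sub_one ha
  obtain ⟨l, hl, m', rfl⟩ := Nat.exists_prime_and_dvd (n := m) fun e => h (by rw [hm, e, mul_one])
  have hd : l ∣ p - 1 := ⟨orderOf a * m', by rw [hm]; ring⟩
  have h1 : a ^ ((p - 1) / l) = 1 := by
    rw [hm, mul_left_comm, Nat.mul_div_cancel_left _ hl.pos, pow_mul, pow_orderOf_eq_one, one_pow]
  refine ⟨l, hl, hd, h1, ?_⟩
  obtain ⟨g, hg⟩ := IsCyclic.exists_monoid_generator (α := (ZMod p)ˣ)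
  obtain ⟨j, hj⟩ := hg (Units.mk0 a ha)
  have ho : orderOf g = p - 1 := by
    rw [orderOf_eq_card_of_forall_mem_powers hg, Nat.card_eq_fintype_card, ZMod.card_units]
  have hj' : (g : ZMod p) ^ j = a := by simpa using congrArg Units.val hj
  have h2 : p - 1 ∣ j * ((p - 1) / l) := by
    nth_rewrite 1 [← ho]
    refine orderOf_dvd_of_pow_eq_one (Units.ext ?_)
    rw [Units.val_pow_eq_pow_val, pow_mul, hj', h1, Units.val_one]
  have h3 : 0 < (p - 1) / l := Nat.div_pos (Nat.le_of_dvd (by have := hp.two_le; omega) hd) hl.pos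
  nth_rewrite 1 [← Nat.mul_div_cancel' hd] at h2
  obtain ⟨i, rfl⟩ := Nat.dvd_of_mul_dvd_mul_right h3 h2
  exact ⟨(g : ZMod p) ^ i, by rw [← hj', ← pow_mul, mul_comm]⟩

open Classical in
/-- Primes modulo which `a` has small order: `∑_{p ∣ a^k - 1} log p ≤ log |a^k - 1|`. -/
theorem small_order {a : ℤ} (ha : 2 ≤ |a|) (Y : ℕ) (P : Finset ℕ) (hP : ∀ p ∈ P, p.Prime ∧
    ∃ k : ℕ, 1 ≤ k ∧ k ≤ Y ∧ (a : ZMod p) ^ k = 1) :
    ∑ p ∈ P, Real.log p ≤ (Y : ℝ) ^ 2 * Real.log (2 * |(a : ℝ)|) := by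
  have ha' : (2 : ℝ) ≤ |(a : ℝ)| := by exact_mod_cast ha
  have hne : ∀ k ∈ Icc 1 Y, a ^ k - 1 ≠ 0 := fun k hk h => by
    have h1 : |a| ^ k = 1 := by rw [← abs_pow, sub_eq_zero.1 h, abs_one]
    have := one_lt_pow₀ (by linarith : 1 < |a|) (n := k) (by have := (mem_Icc.1 hk).1; omega)
    omega
  have hd : ∏ p ∈ P, p ∣ ∏ k ∈ Icc 1 Y, (a ^ k - 1).natAbs := by
    refine prod_primes_dvd _ (fun p hp => (hP p hp).1.prime) fun p hp => ?_
    obtain ⟨-, k, h1, h2, h3⟩ := hP p hp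
    refine Dvd.dvd.trans ?_ (dvd_prod_of_mem _ (mem_Icc.2 ⟨h1, h2⟩))
    rw [← Int.natCast_dvd, ← ZMod.intCast_zmod_eq_zero_iff_dvd]
    push_cast
    rw [h3, sub_self]
  have hle := Nat.le_of_dvd (prod_pos fun k hk => Int.natAbs_pos.2 (hne k hk)) hd
  have hp0 : ∀ p ∈ P, (p : ℝ) ≠ 0 := fun p hp => Nat.cast_ne_zero.2 (hP p hp).1.ne_zero
  calc ∑ p ∈ P, Real.log p = Real.log (∏ p ∈ P, (p : ℝ)) := (Real.log_prod hp0).symm
    _ ≤ Real.log (∏ _k ∈ Icc 1 Y, (2 * |(a : ℝ)|) ^ Y) := by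
        refine Real.log_le_log (prod_pos fun p hp => Nat.cast_pos.2 (hP p hp).1.pos) ?_
        rw [← Nat.cast_prod]
        refine (Nat.cast_le.2 hle).trans ?_
        rw [Nat.cast_prod]
        refine prod_le_prod (fun _ _ => Nat.cast_nonneg _) fun k hk => ?_
        obtain ⟨h1, h2⟩ := mem_Icc.1 hk
        rw [Nat.cast_natAbs]
        push_cast
        have h3 : 1 ≤ |(a : ℝ)| ^ k := one_le_pow₀ (by linarith)
        have h4 : (2 : ℝ) ^ 1 ≤ 2 ^ k := pow_le_pow_right₀ one_le_two h1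
        calc |(a : ℝ) ^ k - 1| ≤ |(a : ℝ) ^ k| + |1| := abs_sub _ _
          _ ≤ (2 * |(a : ℝ)|) ^ k := by rw [abs_pow, abs_one, mul_pow]; nlinarith
          _ ≤ _ := pow_le_pow_right₀ (by linarith) h2
    _ = _ := by
        rw [prod_const, Nat.card_Icc, Nat.add_sub_cancel, Real.log_pow, Real.log_pow]
        ring

open Classical in
/-- A prime with nonzero weight is a primitive root prime, is `Bad`, or `a` has small order. -/
theorem AMain_cover {a : ℤ} {y W : ℕ} {𝒮 : Finset ℕ} (hG : Good a y W 𝒮) {X δ : ℝ} (hX : 4 ≤ X)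
    {p : ℕ} (hp : p ∈ primesIoc (X / 2) X) (hf : fA W 𝒮 X δ (p - 1) ≠ 0) :
    (¬ (p : ℤ) ∣ a ∧ orderOf (a : ZMod p) = p - 1) ∨
      (∃ l ∈ primesIoc y (X ^ (3 * δ)), p ∈ Bad a l X) ∨
      ∃ k : ℕ, 1 ≤ k ∧ k ≤ ⌊X ^ (3 * δ)⌋₊ ∧ (a : ZMod p) ^ k = 1 := by
  have hX0 : 0 < X := by linarith
  obtain ⟨hpp, -, h2⟩ := (mem_primesIoc (by positivity) hX0.le).1 hp
  obtain ⟨Q, hQ, hi⟩ := exists_ne_zero_of_sum_ne_zero hf
  obtain ⟨hs, hQd⟩ := ind_ne_zero.1 hi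
  obtain ⟨hQp, hQ1, -⟩ := (mem_primesIoc (by positivity) (by positivity)).1 hQ
  obtain ⟨g1, g2, g3⟩ := hG p hpp hs
  by_cases ho : orderOf (a : ZMod p) = p - 1
  · exact Or.inl ⟨g1, ho⟩
  refine Or.inr ?_
  obtain ⟨l, hl, hld, hpow, z, hz⟩ := exists_index_prime hpp
    (fun h => g1 ((ZMod.intCast_zmod_eq_zero_iff_dvd a p).1 h)) ho
  have hp1 : 0 < p - 1 := by have := hpp.two_le; omega
  have hm : ∀ m : ℕ, Q * m ∣ p - 1 → (m : ℝ) ≤ X ^ (3 * δ) := fun m hm => by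
    have h3 : ((Q * m : ℕ) : ℝ) ≤ X :=
      (Nat.cast_le.2 ((Nat.le_of_dvd hp1 hm).trans (Nat.sub_le _ _))).trans h2
    have h4 : X ^ (1 - 3 * δ) * X ^ (3 * δ) = X := by
      rw [← Real.rpow_add hX0, sub_add_cancel, Real.rpow_one]
    refine le_of_mul_le_mul_left ?_ (Real.rpow_pos_of_pos hX0 (1 - 3 * δ))
    rw [h4]
    refine le_trans ?_ h3
    push_cast
    gcongr
  rcases eq_or_ne Q l with rfl | hne
  · exact Or.inr ⟨(p - 1) / Q, Nat.div_pos (Nat.le_of_dvd hp1 hld) hl.pos,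
      Nat.le_floor (hm _ (Nat.mul_div_cancel' hld).dvd), hpow⟩
  · have l2 : l ≠ 2 := by
      rintro rfl
      exact g2 ⟨z, by rw [← hz, sq]⟩
    have l3 : y < l := lt_of_not_ge fun h => g3 l hl (by have := hl.two_le; omega) h hld
    refine Or.inl ⟨l, (mem_primesIoc (Nat.cast_nonneg _) (by positivity)).2
      ⟨hl, Nat.cast_lt.2 l3, hm l (((Nat.coprime_primes hQp hl).2 hne).mul_dvd_of_dvd_of_dvd
        hQd hld)⟩, ?_⟩
    exact mem_filter.2 ⟨(mem_primesIoc le_rfl hX0.le).2 ⟨hpp, Nat.cast_pos.2 hpp.pos, h2⟩,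
      hld, g1, z, hz⟩

open Classical in
theorem AMain_count {a : ℤ} (ha : 2 ≤ |a|) {y W : ℕ} {𝒮 : Finset ℕ} (hG : Good a y W 𝒮)
    {X δ : ℝ} (hX : 4 ≤ X) (hδ : δ ≤ 1 / 10) :
    Real.log X * ∑ p ∈ primesIoc (X / 2) X, fA W 𝒮 X δ (p - 1) ≤
      Real.log X * ((primesIoc (X / 2) X).filter
        (fun p : ℕ => ¬ (p : ℤ) ∣ a ∧ orderOf (a : ZMod p) = p - 1)).card +
      2 * ∑ l ∈ primesIoc y (X ^ (3 * δ)), ∑ p ∈ Bad a l X, Real.log p +
      2 * ((⌊X ^ (3 * δ)⌋₊ : ℝ) ^ 2 * Real.log (2 * |(a : ℝ)|)) := by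
  have hX0 : 0 < X := by linarith
  have hL : 0 ≤ Real.log X := Real.log_nonneg (by linarith)
  have h1 := small_order ha ⌊X ^ (3 * δ)⌋₊ ((primesIoc (X / 2) X).filter fun p : ℕ =>
    ∃ k : ℕ, 1 ≤ k ∧ k ≤ ⌊X ^ (3 * δ)⌋₊ ∧ (a : ZMod p) ^ k = 1)
    fun p hp => ⟨(mem_filter.1 (mem_filter.1 hp).1).2, (mem_filter.1 hp).2⟩
  have h2 : ∑ p ∈ primesIoc (X / 2) X, ∑ l ∈ primesIoc y (X ^ (3 * δ)),
      ind (p ∈ Bad a l X) * Real.log p ≤
      ∑ l ∈ primesIoc y (X ^ (3 * δ)), ∑ p ∈ Bad a l X, Real.log p := by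
    rw [sum_comm]
    refine sum_le_sum fun l _ => ?_
    rw [sum_ind_mul]
    exact sum_le_sum_of_subset_of_nonneg (fun p hp => (mem_filter.1 hp).2)
      fun p _ _ => Real.log_natCast_nonneg p
  rw [← sum_ind_mul] at h1
  rw [← sum_ind]
  refine le_trans ?_ (add_le_add (add_le_add_right (mul_le_mul_of_nonneg_left h2 zero_le_two) _)
    (mul_le_mul_of_nonneg_left h1 zero_le_two))
  rw [mul_sum, mul_sum, mul_sum, mul_sum, ← sum_add_distrib, ← sum_add_distrib]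
  refine sum_le_sum fun p hp => ?_
  obtain ⟨hpp, p1, p2⟩ := (mem_primesIoc (by positivity) hX0.le).1 hp
  have hlp : 0 ≤ Real.log p := Real.log_natCast_nonneg p
  have t1 := mul_nonneg hL (ind_nonneg (¬ (p : ℤ) ∣ a ∧ orderOf (a : ZMod p) = p - 1))
  have t2 : 0 ≤ ∑ l ∈ primesIoc y (X ^ (3 * δ)), ind (p ∈ Bad a l X) * Real.log p :=
    sum_nonneg fun l _ => mul_nonneg (ind_nonneg _) hlp
  have t3 := mul_nonneg
    (ind_nonneg (∃ k : ℕ, 1 ≤ k ∧ k ≤ ⌊X ^ (3 * δ)⌋₊ ∧ (a : ZMod p) ^ k = 1)) hlp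
  by_cases hf : fA W 𝒮 X δ (p - 1) = 0
  · rw [hf]; linarith
  have f1 := mul_le_of_le_one_right hL (fA_le_one (W := W) (𝒮 := 𝒮) (by linarith : 1 < X) hδ
    (n := p - 1) (by have := hpp.two_le; omega)
    ((Nat.cast_le.2 (Nat.sub_le _ _)).trans p2)).2
  have f2 : Real.log X ≤ 2 * Real.log p := by
    have := Real.log_le_log hX0 (by nlinarith : X ≤ (p : ℝ) ^ 2)
    rwa [Real.log_pow] at this
  rcases AMain_cover hG hX hp hf with h | ⟨l, hl, h⟩ | h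
  · rw [ind_pos h] at t1 ⊢
    linarith
  · have := single_le_sum (f := fun l => ind (p ∈ Bad a l X) * Real.log p)
      (fun l _ => mul_nonneg (ind_nonneg _) hlp) hl
    rw [ind_pos h] at this
    linarith
  · rw [ind_pos h] at t3 ⊢
    linarith

theorem AMain_bad {a : ℤ} {δ δ' C : ℝ} {k y : ℕ} (hC : 0 ≤ C) (hy : 1 ≤ y)
    (hδ : 3 * δ' * (k + 1) ≤ δ / 2) {X : ℝ} (hX : 2 ≤ X)
    (h : ∀ l : ℕ, l.Prime → y < l →
      ∑ p ∈ Bad a l X, Real.log p ≤ C * X / (l : ℝ) ^ 2 + C * (l : ℝ) ^ k * X ^ (1 - δ)) :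
    ∑ l ∈ primesIoc y (X ^ (3 * δ')), ∑ p ∈ Bad a l X, Real.log p ≤
      C / y * X + C * X ^ (1 - δ / 2) := by
  have hX0 : 0 < X := by linarith
  obtain ⟨Z, hZ⟩ : ∃ Z, Z = X ^ (3 * δ') := ⟨_, rfl⟩
  have hZ0 : 0 < Z := hZ ▸ Real.rpow_pos_of_pos hX0 _
  rw [← hZ]
  have hm : ∀ l ∈ primesIoc y Z, l.Prime ∧ y < l ∧ (l : ℝ) ≤ Z := fun l hl => by
    have := (mem_primesIoc (Nat.cast_nonneg _) hZ0.le).1 hl
    exact ⟨this.1, Nat.cast_lt.1 this.2.1, this.2.2⟩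
  have h1 : ∑ l ∈ primesIoc y Z, ((l : ℝ) ^ 2)⁻¹ ≤ (y : ℝ)⁻¹ := by
    refine (sum_le_sum_of_subset_of_nonneg (t := Ioc y (max y ⌊Z⌋₊)) (fun l hl => ?_)
      fun _ _ _ => by positivity).trans
      ((sum_Ioc_inv_sq_le_sub (by omega) (le_max_left _ _)).trans (sub_le_self _ (by positivity)))
    exact mem_Ioc.2 ⟨(hm l hl).2.1, le_max_of_le_right (Nat.le_floor (hm l hl).2.2)⟩
  have h2 : ((primesIoc y Z).card : ℝ) ≤ Z := by
    refine le_trans (Nat.cast_le.2 ?_) (Nat.floor_le hZ0.le)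
    refine (card_filter_le _ _).trans ?_
    rw [Nat.card_Ioc]
    omega
  have h3 : Z * Z ^ k * X ^ (1 - δ) ≤ X ^ (1 - δ / 2) := by
    rw [← pow_succ', hZ, ← Real.rpow_mul_natCast hX0.le, ← Real.rpow_add hX0]
    refine Real.rpow_le_rpow_of_exponent_le (by linarith) ?_
    push_cast
    linarith
  calc _ ≤ ∑ l ∈ primesIoc y Z, (C * X * ((l : ℝ) ^ 2)⁻¹ + C * (Z ^ k * X ^ (1 - δ))) := by
        refine sum_le_sum fun l hl => (h l (hm l hl).1 (hm l hl).2.1).trans ?_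
        rw [div_eq_mul_inv, mul_assoc C _ (X ^ (1 - δ))]
        gcongr
        exact (hm l hl).2.2
    _ = C * X * ∑ l ∈ primesIoc y Z, ((l : ℝ) ^ 2)⁻¹ +
        C * ((primesIoc y Z).card * Z ^ k * X ^ (1 - δ)) := by
        rw [sum_add_distrib, ← mul_sum, sum_const, nsmul_eq_mul]; ring
    _ ≤ C * X * (y : ℝ)⁻¹ + C * (Z * Z ^ k * X ^ (1 - δ)) := by gcongr
    _ ≤ _ := by
        rw [div_eq_mul_inv, mul_right_comm]
        gcongr

theorem AMain_rpow (K : ℝ) {s ε : ℝ} (hs : 0 < s) (hε : 0 < ε) :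
    ∀ᶠ X : ℝ in atTop, K * X ^ (1 - s) ≤ ε * X := by
  have := ((tendsto_rpow_neg_atTop hs).const_mul K).eventually
    (gt_mem_nhds (by simpa using hε : K * 0 < ε))
  filter_upwards [this, eventually_gt_atTop 0] with X h hX
  rw [sub_eq_add_neg, Real.rpow_add hX, Real.rpow_one]
  nlinarith

/-- Choose `δ' = min (1/10) (δ / (6 (k + 1)))`, `c` from `exists_classes`, `y ≥ max 4 l₀` with
`2 C / y ≤ δ' c / (32 log y)`, `θ = δ' c / (32 log y)`, and apply `low_fA` at `2 x`.  A prime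
`p ∈ (x, 2x]` with `fA (p - 1) ≠ 0` is a primitive root prime, or lies in `Bad a l (2x)` for a
prime `y < l ≤ (2x)^(3δ')`, or has `a^k = 1` with `k = (p-1)/Q ≤ (2x)^(3δ')`;
`log (2x) ≤ 2 log p`, `∑_{l > y} 1/l² ≤ 1/y`.  The endpoint `p = 2x` costs at most one prime. -/
theorem artin_of_KC (a : ℤ) (ha : a ≠ -1) (hsq : ¬ IsSquare a) (h : KC a) :
    ∃ c : ℝ, 0 < c ∧ ∃ x₀ : ℝ, 2 ≤ x₀ ∧ ∀ x : ℝ, x₀ ≤ x →
      c * x / Real.log x ^ 2 ≤
        (Set.ncard {p : ℕ | p.Prime ∧ x < (p : ℝ) ∧ (p : ℝ) < 2 * x ∧ ¬ ((p : ℤ) ∣ a) ∧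
          orderOf ((a : ℤ) : ZMod p) = p - 1} : ℝ) := by
  classical
  have ha2 : 2 ≤ |a| := by
    have h0 : a ≠ 0 := fun h => hsq (h ▸ IsSquare.zero)
    have h1 : a ≠ 1 := fun h => hsq (h ▸ IsSquare.one)
    rcases abs_cases a with ⟨h, _⟩ | ⟨h, _⟩ <;> omega
  obtain ⟨δ, C, k, l₀, hδ, hC, hK⟩ := h
  obtain ⟨c, hc, hcl⟩ := exists_classes a hsq
  obtain ⟨δ', d0, d1, d2⟩ : ∃ δ' : ℝ, 0 < δ' ∧ δ' ≤ 1 / 10 ∧ 3 * δ' * (k + 1) ≤ δ / 2 := by
    refine ⟨min (1 / 10) (δ / (6 * (k + 1))), by positivity, min_le_left _ _, ?_⟩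
    have := (le_div_iff₀ (by positivity)).1 (min_le_right (1 / 10) (δ / (6 * (k + 1))))
    linarith
  obtain ⟨y, y4, y0, hy⟩ : ∃ y : ℕ, 4 ≤ y ∧ l₀ ≤ y ∧ 64 * C * Real.log y ≤ δ' * c * y := by
    have := ((Real.isLittleO_log_id_atTop.const_mul_left (64 * C)).comp_tendsto
      tendsto_natCast_atTop_atTop).def (by positivity : 0 < δ' * c)
    obtain ⟨y, h1, h2, h3⟩ :=
      ((eventually_ge_atTop 4).and ((eventually_ge_atTop l₀).and this)).exists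
    refine ⟨y, h1, h2, (le_abs_self _).trans (h3.trans_eq ?_)⟩
    simp
  obtain ⟨W, 𝒮, hcls, hG, hρ⟩ := hcl y y4
  have y4' : (4 : ℝ) ≤ y := by exact_mod_cast y4
  have hly : 0 < Real.log y := Real.log_pos (by linarith)
  obtain ⟨θ, hθ⟩ : ∃ θ, θ = δ' * c / (32 * Real.log y) := ⟨_, rfl⟩
  have θ0 : 0 < θ := by rw [hθ]; positivity
  have θ1 : 2 * (C / y) ≤ θ := by
    rw [hθ, ← mul_div_assoc, div_le_div_iff₀ (by linarith) (by positivity)]
    linarith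
  have θ2 : 4 * θ ≤ δ' / 8 * ((𝒮.card : ℝ) / (Nat.totient W : ℝ)) := by
    refine le_trans (le_of_eq ?_) (mul_le_mul_of_nonneg_left hρ (by positivity))
    rw [hθ]
    field_simp
    ring
  have hla : 0 ≤ Real.log (2 * |(a : ℝ)|) := by
    have : (2 : ℝ) ≤ |(a : ℝ)| := by exact_mod_cast ha2
    exact Real.log_nonneg (by linarith)
  have ev : ∀ᶠ X : ℝ in atTop, θ * X ≤ Real.log X * (((primesIoc (X / 2) X).filter
      (fun p : ℕ => ¬ (p : ℤ) ∣ a ∧ orderOf (a : ZMod p) = p - 1)).card - 1) := by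
    filter_upwards [low_fA d0 d1 hcls θ θ0, eventually_ge_atTop 4,
      AMain_rpow (2 * C) (half_pos hδ) (by positivity : 0 < θ / 3),
      AMain_rpow (2 * Real.log (2 * |(a : ℝ)|)) (by norm_num : (0 : ℝ) < 2 / 5)
        (by positivity : 0 < θ / 3),
      Real.isLittleO_log_id_atTop.def (by positivity : 0 < θ / 3)] with X e1 hX e2 e3 e4
    have hX0 : 0 < X := by linarith
    have e5 := AMain_count ha2 hG hX d1
    have e6 := AMain_bad (a := a) hC (by omega : 1 ≤ y) d2 (by linarith : 2 ≤ X)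
      fun l hl hyl => hK l hl (by omega) X (by linarith)
    have e7 : (⌊X ^ (3 * δ')⌋₊ : ℝ) ^ 2 ≤ X ^ (1 - 2 / 5 : ℝ) := by
      refine (pow_le_pow_left₀ (Nat.cast_nonneg _) (Nat.floor_le (by positivity)) 2).trans ?_
      rw [← Real.rpow_mul_natCast hX0.le]
      refine Real.rpow_le_rpow_of_exponent_le (by linarith) ?_
      push_cast
      linarith
    have e8 := mul_le_mul_of_nonneg_right e7 hla
    have e9 := mul_le_mul_of_nonneg_right θ1 hX0.le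
    have e10 := mul_le_mul_of_nonneg_right θ2 hX0.le
    rw [id, Real.norm_of_nonneg hX0.le] at e4
    have e11 := (le_abs_self _).trans e4
    linarith
  obtain ⟨X₀, hX₀⟩ := eventually_atTop.1 ev
  refine ⟨θ, θ0, max 3 X₀, le_max_of_le_left (by norm_num), fun x hx => ?_⟩
  obtain ⟨x3, x0⟩ := max_le_iff.1 hx
  have e1 := hX₀ (2 * x) (by linarith)
  have l1 : 1 ≤ Real.log x := by
    rw [Real.le_log_iff_exp_le (by linarith)]
    linarith [Real.exp_one_lt_d9]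
  have l2 : Real.log (2 * x) ≤ 2 * Real.log x ^ 2 := by
    rw [Real.log_mul two_ne_zero (by linarith)]
    have := Real.log_le_log two_pos (by linarith : 2 ≤ x)
    nlinarith
  obtain ⟨G, hGe⟩ : ∃ G, G = {p : ℕ | p.Prime ∧ x < (p : ℝ) ∧ (p : ℝ) < 2 * x ∧
    ¬ ((p : ℤ) ∣ a) ∧ orderOf ((a : ℤ) : ZMod p) = p - 1} := ⟨_, rfl⟩
  rw [← hGe]
  have hfin : G.Finite := (Set.finite_le_nat ⌊2 * x⌋₊).subset fun p hp =>
    Nat.le_floor (hGe ▸ hp : p ∈ {p : ℕ | _}).2.2.1.le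
  have e2 : ((primesIoc (2 * x / 2) (2 * x)).filter
      (fun p : ℕ => ¬ (p : ℤ) ∣ a ∧ orderOf (a : ZMod p) = p - 1)).card ≤ G.ncard + 1 := by
    rw [← Set.ncard_coe_finset]
    refine (Set.ncard_le_ncard (fun p hp => ?_) (hfin.insert ⌊2 * x⌋₊)).trans
      (Set.ncard_insert_le _ _)
    obtain ⟨h1, h2⟩ := mem_filter.1 hp
    obtain ⟨h3, h4, h5⟩ := (mem_primesIoc (by linarith) (by linarith)).1 h1
    rcases h5.eq_or_lt with h6 | h6
    · exact Or.inl (by rw [← h6, Nat.floor_natCast])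
    · exact Or.inr (hGe ▸ ⟨h3, by linarith, h6, h2⟩)
  have e3 := (Nat.cast_le (α := ℝ)).2 e2
  push_cast at e3
  have e4 := mul_le_mul_of_nonneg_left (sub_le_iff_le_add.2 e3)
    (Real.log_nonneg (by linarith : 1 ≤ 2 * x))
  have e5 := mul_le_mul_of_nonneg_right l2 (Nat.cast_nonneg (α := ℝ) G.ncard)
  rw [div_le_iff₀ (by positivity)]
  linarith

end Crest.Agent.R027
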