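import Crest.Agent.R027.ADefs

set_option autoImplicit false

namespace Crest.Agent.R027

open Finset Filter Crest.Agent.R008 Crest.Agent.R026

/-- Primes `≡ 1 (mod W)` in dyadic intervals: `sw_prime` (with `ε = 1`, `l = log y`) and
orthogonality of characters (`DirichletCharacter.sum_characters_eq`). -/
theorem theta_one_mod (W : ℕ) (hW : 1 ≤ W) : ∀ᶠ y : ℝ in atTop,
    y / (2 * (Nat.totient W : ℝ)) ≤
      ∑ p ∈ (primesIoc y (2 * y)).filter (fun p => p ≡ 1 [MOD W]), Real.log p := by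
  obtain ⟨l₀, h⟩ := sw_prime 1 one_pos 1
  have : NeZero W := ⟨by omega⟩
  have hφ : (0 : ℝ) < Nat.totient W := by exact_mod_cast Nat.totient_pos.2 hW
  filter_upwards [eventually_gt_atTop 0, Real.tendsto_log_atTop.eventually_ge_atTop l₀,
    Real.tendsto_log_atTop.eventually_ge_atTop (W : ℝ),
    Real.tendsto_log_atTop.eventually_ge_atTop (2 * (Nat.totient W : ℝ))] with y hy h0 h1 h2
  have hb : ∀ χ : DirichletCharacter ℂ W,
      ‖∑ p ∈ primesIoc y (2 * y), (Real.log p : ℂ) * χ (p : ZMod W) - dl χ * (2 * y - y : ℝ)‖ ≤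
        y / (2 * (Nat.totient W : ℝ)) := fun χ => by
    refine le_trans (h _ h0 W χ y (2 * y) hW (by simpa using h1)
      (by rw [one_mul, Real.exp_log hy]) (by rw [Real.exp_log hy]) (by linarith) le_rfl) ?_
    rw [pow_one]
    exact div_le_div_of_nonneg_left hy.le (by positivity) h2
  set θ := ∑ p ∈ (primesIoc y (2 * y)).filter (fun p => p ≡ 1 [MOD W]), Real.log p with hθ
  have hsum : ∑ χ : DirichletCharacter ℂ W,
      (∑ p ∈ primesIoc y (2 * y), (Real.log p : ℂ) * χ (p : ZMod W) - dl χ * (2 * y - y : ℝ)) =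
      ((Nat.totient W * θ - y : ℝ) : ℂ) := by
    rw [Finset.sum_sub_distrib, Finset.sum_comm, ← Finset.sum_mul]
    have h3 : ∑ χ : DirichletCharacter ℂ W, dl χ = 1 := by
      rw [Finset.sum_eq_single 1]
      · simp [dl, ind]
      · intro χ _ hχ; simp [dl, ind, hχ]
      · simp
    rw [h3, hθ, Finset.sum_filter]
    simp only [← Finset.mul_sum, DirichletCharacter.sum_characters_eq]
    push_cast
    rw [Finset.mul_sum]
    congr 1
    · refine Finset.sum_congr rfl fun p _ => ?_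
      have : ((p : ZMod W) = 1) ↔ p ≡ 1 [MOD W] := by
        rw [← ZMod.natCast_eq_natCast_iff, Nat.cast_one]
      by_cases hp : p ≡ 1 [MOD W]
      · simp [this, hp, mul_comm]
      · simp [this, hp]
    · ring
  have hcard : Fintype.card (DirichletCharacter ℂ W) = Nat.totient W := by
    rw [← Nat.card_eq_fintype_card]
    exact DirichletCharacter.card_eq_totient_of_hasEnoughRootsOfUnity ℂ W
  have h4 := (norm_sum_le _ _).trans (Finset.sum_le_sum fun χ (_ : χ ∈ Finset.univ) => hb χ)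
  rw [hsum, Finset.sum_const, Finset.card_univ, hcard, nsmul_eq_mul, Complex.norm_real,
    Real.norm_eq_abs] at h4
  have h5 : (Nat.totient W : ℝ) * (y / (2 * (Nat.totient W : ℝ))) = y / 2 := by field_simp
  rw [div_le_iff₀ (by positivity)]
  have := (abs_le.1 h4).1
  linarith

theorem apool_dyadic (W : ℕ) (hW : 1 ≤ W) : ∃ j₀ : ℕ, ∀ a, j₀ ≤ a → ∀ b, a ≤ b →
    (Real.log (b + 1) - Real.log (a + 1)) / (4 * (Nat.totient W : ℝ)) ≤
      ∑ p ∈ ((Ioc (2 ^ a) (2 ^ b)).filter Nat.Prime).filter (fun p => p ≡ 1 [MOD W]),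
        (1 : ℝ) / p := by
  have hφ : (0 : ℝ) < Nat.totient W := by exact_mod_cast Nat.totient_pos.2 hW
  obtain ⟨j₀, h⟩ := eventually_atTop.1
    ((tendsto_pow_atTop_atTop_of_one_lt (one_lt_two : (1 : ℝ) < 2)).eventually (theta_one_mod W hW))
  refine ⟨j₀, fun a ha b hb => ?_⟩
  induction b, hb using Nat.le_induction with
  | base => simp
  | succ b hb ih =>
    have h1 := h b (ha.trans hb)
    have e1 : primesIoc ((2 : ℝ) ^ b) (2 * 2 ^ b) = (Ioc (2 ^ b) (2 ^ (b + 1))).filter Nat.Prime := by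
      unfold primesIoc
      rw [show (2 : ℝ) * 2 ^ b = ((2 ^ (b + 1) : ℕ) : ℝ) by push_cast; ring,
        show (2 : ℝ) ^ b = ((2 ^ b : ℕ) : ℝ) by push_cast; ring, Nat.floor_natCast, Nat.floor_natCast]
    rw [e1] at h1
    have hsplit : Ioc (2 ^ a) (2 ^ (b + 1)) = Ioc (2 ^ a) (2 ^ b) ∪ Ioc (2 ^ b) (2 ^ (b + 1)) :=
      (Finset.Ioc_union_Ioc_eq_Ioc (Nat.pow_le_pow_right (by norm_num) hb)
        (Nat.pow_le_pow_right (by norm_num) (Nat.le_succ b))).symm
    rw [hsplit, Finset.filter_union, Finset.filter_union, Finset.sum_union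
      (Finset.disjoint_filter_filter (Finset.disjoint_filter_filter
        (Finset.Ioc_disjoint_Ioc_of_le le_rfl)))]
    have hb1 : (0 : ℝ) < b + 1 := by positivity
    have h2 : ∑ p ∈ ((Ioc (2 ^ b) (2 ^ (b + 1))).filter Nat.Prime).filter (fun p => p ≡ 1 [MOD W]),
        Real.log p ≤ (2 ^ (b + 1) * (b + 1)) *
        ∑ p ∈ ((Ioc (2 ^ b) (2 ^ (b + 1))).filter Nat.Prime).filter (fun p => p ≡ 1 [MOD W]),
          (1 : ℝ) / p := by
      rw [Finset.mul_sum]
      refine Finset.sum_le_sum fun p hp => ?_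
      simp only [Finset.mem_filter, Finset.mem_Ioc] at hp
      have hp0 : (0 : ℝ) < p := by exact_mod_cast hp.1.2.pos
      have hp1 : (p : ℝ) ≤ 2 ^ (b + 1) := by exact_mod_cast hp.1.1.2
      have hl : Real.log p ≤ b + 1 := by
        refine le_trans (Real.log_le_log hp0 hp1) ?_
        rw [Real.log_pow]
        have := Real.log_le_sub_one_of_pos (two_pos : (0 : ℝ) < 2)
        push_cast
        nlinarith
      rw [mul_one_div, le_div_iff₀ hp0, mul_comm]
      exact mul_le_mul hp1 hl (Real.log_natCast_nonneg p) (by positivity)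
    set T := ∑ p ∈ ((Ioc (2 ^ b) (2 ^ (b + 1))).filter Nat.Prime).filter (fun p => p ≡ 1 [MOD W]),
      (1 : ℝ) / p with hT
    have h3 : 1 / (b + 1) / (4 * (Nat.totient W : ℝ)) ≤ T := by
      have h4 := h1.trans h2
      rw [div_le_iff₀ (by positivity)] at h4
      rw [div_div, div_le_iff₀ (by positivity)]
      have h5 : (0 : ℝ) < 2 ^ b := by positivity
      refine le_of_mul_le_mul_left ?_ h5
      rw [pow_succ] at h4
      linarith
    have h6 : Real.log (((b + 1 : ℕ) : ℝ) + 1) - Real.log (b + 1) ≤ 1 / (b + 1) := by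
      rw [← Real.log_div (by positivity) hb1.ne']
      refine le_trans (Real.log_le_sub_one_of_pos (by positivity)) (le_of_eq ?_)
      push_cast
      field_simp
      ring
    have h7 := div_le_div_of_nonneg_right h6 (by positivity : (0 : ℝ) ≤ 4 * (Nat.totient W : ℝ))
    rw [sub_div] at ih h7 ⊢
    linarith

/-- Pools of primes `≡ 1 (mod W)`: the interval `(2^j, 2^(j+1)]` contributes at least
`1 / (4 φ(W) (j+1))`; sum over `c log₂ N + 1 ≤ j ≤ c' log₂ N - 2`. -/
theorem pool_exists_mod (W : ℕ) (hW : 1 ≤ W) (V₀ : ℝ) (c : ℕ) (hc : 1 ≤ c) : ∃ c' : ℕ,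
    ∀ᶠ N : ℕ in atTop, ∃ U : Finset ℕ, Pool N c c' U ∧ (∀ p ∈ U, p ≡ 1 [MOD W]) ∧
      V₀ ≤ ∑ p ∈ U, (1 : ℝ) / p := by
  have hφ : (0 : ℝ) < Nat.totient W := by exact_mod_cast Nat.totient_pos.2 hW
  obtain ⟨j₀, h⟩ := apool_dyadic W hW
  obtain ⟨m, hm1, hm⟩ : ∃ m : ℕ, 1 ≤ m ∧ Real.exp (4 * (Nat.totient W : ℝ) * V₀) ≤ m :=
    ⟨⌈Real.exp (4 * (Nat.totient W : ℝ) * V₀)⌉₊ + 1, by omega, by
      push_cast; linarith [Nat.le_ceil (Real.exp (4 * (Nat.totient W : ℝ) * V₀))]⟩
  refine ⟨3 * c * m, ?_⟩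
  filter_upwards [eventually_ge_atTop (2 ^ (j₀ + 1))] with N hN
  have hN0 : N ≠ 0 := by
    have : 0 < 2 ^ (j₀ + 1) := by positivity
    omega
  set L := Nat.log 2 N with hL
  have hL1 : j₀ + 1 ≤ L := Nat.le_log_of_pow_le (by norm_num) hN
  have h1 : 2 ^ L ≤ N := Nat.pow_log_le_self 2 hN0
  have h2 : N < 2 ^ (L + 1) := Nat.lt_pow_succ_log_self (by norm_num) N
  set a := c * (L + 1) with ha
  have ha1 : j₀ ≤ a := by nlinarith
  have hab : a ≤ m * (a + 1) := by nlinarith
  refine ⟨((Ioc (2 ^ a) (2 ^ (m * (a + 1)))).filter Nat.Prime).filter (fun p => p ≡ 1 [MOD W]),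
    fun p hp => ?_, fun p hp => (Finset.mem_filter.1 hp).2, le_trans ?_ (h a ha1 _ hab)⟩
  · simp only [Finset.mem_filter, Finset.mem_Ioc] at hp
    refine ⟨hp.1.2, le_trans ?_ hp.1.1.1.le, le_trans hp.1.1.2 ?_⟩
    · rw [ha, mul_comm, pow_mul]
      exact Nat.pow_le_pow_left h2.le c
    · calc 2 ^ (m * (a + 1)) ≤ 2 ^ (L * (3 * c * m)) := by
            refine Nat.pow_le_pow_right (by norm_num) ?_
            have : a + 1 ≤ L * (3 * c) := by nlinarith
            calc m * (a + 1) ≤ m * (L * (3 * c)) := Nat.mul_le_mul_left _ this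
              _ = L * (3 * c * m) := by ring
        _ ≤ N ^ (3 * c * m) := by rw [pow_mul]; exact Nat.pow_le_pow_left h1 _
  · rw [le_div_iff₀ (by positivity)]
    have m0 : (0 : ℝ) < m := by exact_mod_cast hm1
    have h3 := (Real.le_log_iff_exp_le m0).2 hm
    have h4 : Real.log m + Real.log (a + 1) ≤ Real.log (((m * (a + 1) : ℕ) : ℝ) + 1) := by
      rw [← Real.log_mul m0.ne' (by positivity)]
      refine Real.log_le_log (by positivity) ?_
      push_cast
      linarith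
    linarith

end Crest.Agent.R027
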